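import Vale.Agent.P099.Defs

/-!
P099, helper717: for the Baire-generic triangle with vertices `0, 1, z` the squares of the unit
directions of the sides are simultaneously close to `1` at powers `L`, at any prescribed speed.
-/

open Set Filter Topology Complex

namespace Vale.Agent.P099.R2.H717R

/-- The square of the unit direction of `w`. -/
noncomputable def sq (w : ℂ) : ℂ := (w / (‖w‖ : ℂ)) ^ 2

lemma sq_smul {r : ℝ} (hr : r ≠ 0) (θ : ℝ) : sq ((r : ℂ) * exp (θ * I)) = exp (2 * θ * I) := by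
  unfold sq
  rw [norm_mul, norm_exp_ofReal_mul_I, mul_one, Complex.norm_real, Real.norm_eq_abs, div_pow,
    mul_pow, ← ofReal_pow, ← ofReal_pow, sq_abs, mul_div_assoc, mul_comm, div_mul_cancel₀]
  · rw [← exp_nat_mul]
    congr 1
    push_cast
    ring
  · exact_mod_cast pow_ne_zero 2 hr

lemma sq_pow {r : ℝ} (hr : r ≠ 0) (a : ℤ) {q : ℕ} (hq : 0 < q) (m : ℕ) :
    sq ((r : ℂ) * exp ((Real.pi * (a / q) : ℝ) * I)) ^ (q * m) = 1 := by
  rw [sq_smul hr, ← exp_nat_mul, Complex.exp_eq_one_iff]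
  refine ⟨a * m, ?_⟩
  have : (q : ℂ) ≠ 0 := by exact_mod_cast hq.ne'
  push_cast
  field_simp

/-- The third vertex with directions `π p.1`, `π p.2` of the sides at `0` and `1`. -/
noncomputable def F (p : ℝ × ℝ) : ℂ :=
  ((Real.sin (Real.pi * p.2) / Real.sin (Real.pi * (p.2 - p.1)) : ℝ) : ℂ) *
    exp ((Real.pi * p.1 : ℝ) * I)

lemma F_sub {p : ℝ × ℝ} (h : Real.sin (Real.pi * (p.2 - p.1)) ≠ 0) :
    F p - 1 = ((Real.sin (Real.pi * p.1) / Real.sin (Real.pi * (p.2 - p.1)) : ℝ) : ℂ) *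
      exp ((Real.pi * p.2 : ℝ) * I) := by
  unfold F
  rw [mul_sub] at h ⊢
  generalize Real.pi * p.1 = a at h ⊢
  generalize Real.pi * p.2 = b at h ⊢
  apply Complex.ext
  · rw [sub_re, re_ofReal_mul, re_ofReal_mul, exp_ofReal_mul_I_re, exp_ofReal_mul_I_re, one_re]
    field_simp
    rw [Real.sin_sub]
    ring
  · rw [sub_im, im_ofReal_mul, im_ofReal_mul, exp_ofReal_mul_I_im, exp_ofReal_mul_I_im, one_im]
    field_simp
    ring

lemma F_arg {z : ℂ} (hz : z.im ≠ 0) :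
    Real.sin (Real.pi * ((z - 1).arg / Real.pi - z.arg / Real.pi)) ≠ 0 ∧
    Real.sin (Real.pi * ((z - 1).arg / Real.pi)) ≠ 0 ∧
    Real.sin (Real.pi * (z.arg / Real.pi)) ≠ 0 ∧
    F (z.arg / Real.pi, (z - 1).arg / Real.pi) = z := by
  have hpi := Real.pi_ne_zero
  have h0 : z ≠ 0 := fun h => hz (by simp [h])
  have h1 : z - 1 ≠ 0 := fun h => hz (by rw [sub_eq_zero] at h; simp [h])
  have n0 : ‖z‖ ≠ 0 := norm_ne_zero_iff.2 h0
  have n1 : ‖z - 1‖ ≠ 0 := norm_ne_zero_iff.2 h1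
  have s0 : Real.sin z.arg = z.im / ‖z‖ := Complex.sin_arg z
  have s1 : Real.sin (z - 1).arg = z.im / ‖z - 1‖ := by rw [Complex.sin_arg]; simp
  have c0 : Real.cos z.arg = z.re / ‖z‖ := Complex.cos_arg h0
  have c1 : Real.cos (z - 1).arg = (z.re - 1) / ‖z - 1‖ := by rw [Complex.cos_arg h1]; simp
  have e1 : Real.pi * ((z - 1).arg / Real.pi) = (z - 1).arg := by field_simp
  have e0 : Real.pi * (z.arg / Real.pi) = z.arg := by field_simp
  have s2 : Real.sin ((z - 1).arg - z.arg) = z.im / (‖z‖ * ‖z - 1‖) := by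
    rw [Real.sin_sub, s0, s1, c0, c1]
    field_simp
    ring
  refine ⟨?_, ?_, ?_, ?_⟩
  · rw [mul_sub, e1, e0, s2]
    exact div_ne_zero hz (mul_ne_zero n0 n1)
  · rw [e1, s1]
    exact div_ne_zero hz n1
  · rw [e0, s0]
    exact div_ne_zero hz n0
  · unfold F
    dsimp only
    rw [mul_sub, e1, e0, s2, s1]
    have : z.im / ‖z - 1‖ / (z.im / (‖z‖ * ‖z - 1‖)) = ‖z‖ := by
      field_simp
    rw [this]
    exact Complex.norm_mul_exp_arg_mul_I z

/-- Pairs of fractions with one denominator are dense. -/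
lemma dense_frac : Dense {p : ℝ × ℝ | ∃ (q : ℕ) (a b : ℤ), 0 < q ∧
    p = ((a : ℝ) / q, (b : ℝ) / q)} := by
  have h := (Rat.isDenseEmbedding_coe_real.dense.prodMap Rat.isDenseEmbedding_coe_real.dense)
  refine h.mono ?_
  rintro _ ⟨⟨x, y⟩, rfl⟩
  refine ⟨x.den * y.den, x.num * y.den, y.num * x.den, Nat.mul_pos x.pos y.pos, ?_⟩
  have hx : (x.den : ℝ) ≠ 0 := by exact_mod_cast x.den_nz
  have hy : (y.den : ℝ) ≠ 0 := by exact_mod_cast y.den_nz
  have hx' : (x : ℝ) = x.num / x.den := by exact_mod_cast (Rat.num_div_den x).symm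
  have hy' : (y : ℝ) = y.num / y.den := by exact_mod_cast (Rat.num_div_den y).symm
  simp only [Prod.map_apply, Prod.mk.injEq]
  push_cast
  constructor
  · rw [hx']
    field_simp
  · rw [hy']
    field_simp

lemma continuousAt_sq {z : ℂ} (h : z ≠ 0) : ContinuousAt sq z := by
  unfold sq
  have : ((‖z‖ : ℝ) : ℂ) ≠ 0 := by exact_mod_cast norm_ne_zero_iff.2 h
  fun_prop (disch := assumption)

def V (ψ : ℕ → ℝ) (n : ℕ) : Set ℂ :=
  {z | z.im ≠ 0 ∧ ∃ L ≥ n, 1 ≤ L ∧ ‖sq z ^ L - 1‖ < ψ L ∧ ‖sq (z - 1) ^ L - 1‖ < ψ L}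

lemma isOpen_V (ψ : ℕ → ℝ) (n : ℕ) : IsOpen (V ψ n) := by
  rw [isOpen_iff_mem_nhds]
  rintro z ⟨hz, L, hL, hL1, h0, h1⟩
  have z0 : z ≠ 0 := fun h => hz (by simp [h])
  have z1 : z - 1 ≠ 0 := fun h => hz (by rw [sub_eq_zero] at h; simp [h])
  have c0 := continuousAt_sq z0
  have c1 : ContinuousAt (fun w : ℂ => sq (w - 1)) z :=
    ContinuousAt.comp (f := fun w : ℂ => w - 1) (g := sq) (continuousAt_sq z1) (by fun_prop)
  have k0 : ContinuousAt (fun w : ℂ => ‖sq w ^ L - 1‖) z := ((c0.pow L).sub continuousAt_const).norm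
  have k1 : ContinuousAt (fun w : ℂ => ‖sq (w - 1) ^ L - 1‖) z :=
    ((c1.pow L).sub continuousAt_const).norm
  filter_upwards [k0.eventually (gt_mem_nhds h0), k1.eventually (gt_mem_nhds h1),
    Complex.continuous_im.continuousAt.eventually (isOpen_ne.mem_nhds hz)] with w a b c
  exact ⟨c, L, hL, hL1, a, b⟩

lemma dense_V {ψ : ℕ → ℝ} (hψ : ∀ n, 0 < ψ n) (n : ℕ) : Dense (V ψ n) := by
  have hd : Dense {z : ℂ | z.im ≠ 0} := by
    have := (dense_compl_singleton (0 : ℝ)).preimage Complex.isOpenMap_im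
    exact this
  rw [← dense_closure]
  refine hd.mono ?_
  intro z hz
  obtain ⟨a1, a2, a3, a4⟩ := F_arg hz
  set p : ℝ × ℝ := (z.arg / Real.pi, (z - 1).arg / Real.pi) with hp
  have cF : ContinuousAt F p := by
    unfold F
    refine ContinuousAt.mul ?_ (by fun_prop)
    refine Complex.continuous_ofReal.continuousAt.comp ?_
    exact ContinuousAt.div (by fun_prop) (by fun_prop) a1
  rw [mem_closure_iff_nhds]
  intro W hW
  have hW' : F ⁻¹' W ∈ 𝓝 p := cF (by rw [a4]; exact hW)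
  have b1 : ∀ᶠ x : ℝ × ℝ in 𝓝 p, Real.sin (Real.pi * (x.2 - x.1)) ≠ 0 :=
    ContinuousAt.eventually_ne (by fun_prop) a1
  have b2 : ∀ᶠ x : ℝ × ℝ in 𝓝 p, Real.sin (Real.pi * x.2) ≠ 0 :=
    ContinuousAt.eventually_ne (by fun_prop) a2
  have b3 : ∀ᶠ x : ℝ × ℝ in 𝓝 p, Real.sin (Real.pi * x.1) ≠ 0 :=
    ContinuousAt.eventually_ne (by fun_prop) a3
  have b4 : ∀ᶠ x : ℝ × ℝ in 𝓝 p, (F x).im ≠ 0 := by
    refine ContinuousAt.eventually_ne (Complex.continuous_im.continuousAt.comp cF) ?_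
    rw [a4]
    exact hz
  obtain ⟨x, ⟨q, a, b, hq, hx⟩, ⟨⟨⟨⟨x1, x2⟩, x3⟩, x4⟩, x5⟩⟩ := dense_frac.inter_nhds_nonempty
    (inter_mem (inter_mem (inter_mem (inter_mem hW' b1) b2) b3) b4)
  refine ⟨F x, x1, x5, q * (n + 1), ?_, ?_, ?_, ?_⟩
  · nlinarith
  · exact Nat.mul_pos hq (Nat.succ_pos n)
  · have : sq (F x) ^ (q * (n + 1)) = 1 := by
      have hr : Real.sin (Real.pi * x.2) / Real.sin (Real.pi * (x.2 - x.1)) ≠ 0 :=
        div_ne_zero x3 x2
      have := sq_pow hr a hq (n + 1)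
      unfold F
      rw [← this]
      subst hx
      rfl
    rw [this, sub_self, norm_zero]
    exact hψ _
  · have : sq (F x - 1) ^ (q * (n + 1)) = 1 := by
      have hr : Real.sin (Real.pi * x.1) / Real.sin (Real.pi * (x.2 - x.1)) ≠ 0 :=
        div_ne_zero x4 x2
      have := sq_pow hr b hq (n + 1)
      rw [F_sub x2, ← this]
      subst hx
      rfl
    rw [this, sub_self, norm_zero]
    exact hψ _

/-- For every `z` outside a meagre set the triangle with vertices `0, 1, z` has powers `L` of the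
squared side directions which are closer than `ψ L`. -/
theorem generic (ψ : ℕ → ℝ) (hψ : ∀ n, 0 < ψ n) :
    IsMeagre {z : ℂ | ¬ ∀ n : ℕ, ∃ L ≥ n, 1 ≤ L ∧ ∀ T : Vale.Agent.P099.Triangle,
      T.P 0 = 0 → T.P 1 = 1 → T.P 2 = z → ∀ i : Fin 3,
        ‖(((T.P (i + 2) - T.P (i + 1)) / (‖T.P (i + 2) - T.P (i + 1)‖ : ℂ)) ^ 2) ^ L -
          (((T.P (0 + 2) - T.P (0 + 1)) / (‖T.P (0 + 2) - T.P (0 + 1)‖ : ℂ)) ^ 2) ^ L‖
          < ψ L} := by
  have hψ' : ∀ n, 0 < ψ n / 2 := fun n => half_pos (hψ n)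
  have hr : (⋂ n, V (fun n => ψ n / 2) n) ∈ residual ℂ :=
    countable_iInter_mem.2 fun n => residual_of_dense_open (isOpen_V _ n) (dense_V hψ' n)
  rw [IsMeagre]
  refine mem_of_superset hr ?_
  intro z hz
  simp only [mem_compl_iff, mem_ofPred_eq, not_not]
  intro n
  obtain ⟨hz0, L, hL, hL1, h0, h1⟩ := mem_iInter.1 hz n
  refine ⟨L, hL, hL1, fun T e0 e1 e2 i => ?_⟩
  have s1 : ((((0 : ℂ) - z) / (‖(0 : ℂ) - z‖ : ℂ)) ^ 2) = sq z := by
    rw [zero_sub, norm_neg, neg_div, neg_sq]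
    rfl
  have s0 : (((z - 1) / (‖z - 1‖ : ℂ)) ^ 2) = sq (z - 1) := rfl
  have s2 : ((((1 : ℂ) - 0) / (‖(1 : ℂ) - 0‖ : ℂ)) ^ 2) = 1 := by simp
  have z2 : T.P (0 + 2) = z := e2
  have z1 : T.P (0 + 1) = 1 := e1
  rw [z2, z1, s0]
  fin_cases i
  · change ‖(((T.P 2 - T.P 1) / (‖T.P 2 - T.P 1‖ : ℂ)) ^ 2) ^ L - _‖ < _
    rw [e2, e1, s0, sub_self, norm_zero]
    exact hψ L
  · change ‖(((T.P 0 - T.P 2) / (‖T.P 0 - T.P 2‖ : ℂ)) ^ 2) ^ L - _‖ < _
    rw [e2, e0, s1]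
    have : sq z ^ L - sq (z - 1) ^ L = (sq z ^ L - 1) - (sq (z - 1) ^ L - 1) := by ring
    rw [this]
    refine (norm_sub_le _ _).trans_lt ?_
    dsimp only at h0 h1
    linarith
  · change ‖(((T.P 1 - T.P 0) / (‖T.P 1 - T.P 0‖ : ℂ)) ^ 2) ^ L - _‖ < _
    rw [e1, e0, s2, one_pow, norm_sub_rev]
    dsimp only at h1
    have := hψ L
    linarith

end Vale.Agent.P099.R2.H717R
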