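import Vale.Agent.P099.R2.H533.Abs

/-! # P099: a correlation that does not decay (simultaneous Dirichlet approximation). -/

set_option linter.all false

namespace Vale.Agent.P099.H717R

open MeasureTheory Set Filter Topology Vale.Agent.P099

/-- simultaneous Dirichlet approximation for unit complex numbers -/
theorem dirichlet_unit {m : ℕ} (d : Fin m → ℂ) (hd : ∀ i, ‖d i‖ = 1) (K : ℕ) (hK : 1 ≤ K) :
    ∃ L : ℕ, 1 ≤ L ∧ L ≤ K ^ m ∧ ∀ i, ‖d i ^ L - 1‖ ≤ 2 * Real.pi / K := by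
  have hKr : (0 : ℝ) < K := by exact_mod_cast hK
  set x : Fin m → ℝ := fun i => Complex.arg (d i) / (2 * Real.pi) with hx
  have hpi := Real.pi_pos
  have hdx : ∀ i, d i = Complex.exp ((2 * Real.pi * x i : ℝ) * Complex.I) := by
    intro i
    have h1 := Complex.norm_mul_exp_arg_mul_I (d i)
    rw [hd i] at h1
    have h2 : 2 * Real.pi * x i = Complex.arg (d i) := by
      simp only [hx]; field_simp
    rw [h2]
    simpa using h1.symm
  -- pigeonhole
  have hfl : ∀ (k : ℕ) (i : Fin m), ⌊(K : ℝ) * Int.fract (k * x i)⌋₊ < K := by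
    intro k i
    rw [Nat.floor_lt (mul_nonneg hKr.le (Int.fract_nonneg _))]
    have := Int.fract_lt_one ((k : ℝ) * x i)
    nlinarith
  let f : Fin (K ^ m + 1) → (Fin m → Fin K) := fun k i => ⟨⌊(K : ℝ) * Int.fract (k * x i)⌋₊, hfl k i⟩
  have hcard : Fintype.card (Fin m → Fin K) < Fintype.card (Fin (K ^ m + 1)) := by
    simp
  obtain ⟨a, b, hab, hfab⟩ := Fintype.exists_ne_map_eq_of_card_lt f hcard
  wlog hlt : (a : ℕ) < b generalizing a b with H
  · refine H b a hab.symm hfab.symm ?_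
    have : (a : ℕ) ≠ b := fun h => hab (Fin.ext h)
    omega
  refine ⟨b - a, by omega, by have := b.2; omega, fun i => ?_⟩
  have hi : ⌊(K : ℝ) * Int.fract ((a : ℕ) * x i)⌋₊ = ⌊(K : ℝ) * Int.fract ((b : ℕ) * x i)⌋₊ := by
    have := congrFun hfab i
    exact Fin.mk.inj_iff.1 this
  set p := Int.fract (((a : ℕ) : ℝ) * x i) with hp
  set q := Int.fract (((b : ℕ) : ℝ) * x i) with hq
  have h1 := Nat.floor_le (mul_nonneg hKr.le (Int.fract_nonneg (((a : ℕ) : ℝ) * x i)))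
  have h2 := Nat.lt_floor_add_one ((K : ℝ) * p)
  have h3 := Nat.floor_le (mul_nonneg hKr.le (Int.fract_nonneg (((b : ℕ) : ℝ) * x i)))
  have h4 := Nat.lt_floor_add_one ((K : ℝ) * q)
  rw [← hp] at h1
  rw [← hq] at h3
  rw [hi] at h1 h2
  have h5 : |K * (q - p)| ≤ 1 := by
    rw [abs_le]
    constructor <;> nlinarith
  have h6 : |q - p| ≤ 1 / K := by
    rw [abs_mul, abs_of_pos hKr] at h5
    rw [le_div_iff₀ hKr]
    linarith
  -- the multiple
  have h7 : ((b - a : ℕ) : ℝ) * x i = (q - p) + ((⌊((b : ℕ) : ℝ) * x i⌋ - ⌊((a : ℕ) : ℝ) * x i⌋ : ℤ) : ℝ) := by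
    rw [Nat.cast_sub hlt.le]
    have e1 := Int.self_sub_floor (((a : ℕ) : ℝ) * x i)
    have e2 := Int.self_sub_floor (((b : ℕ) : ℝ) * x i)
    rw [← hp] at e1
    rw [← hq] at e2
    push_cast
    linarith
  set M : ℤ := ⌊((b : ℕ) : ℝ) * x i⌋ - ⌊((a : ℕ) : ℝ) * x i⌋ with hM
  have h8 : d i ^ ((b : ℕ) - (a : ℕ)) = Complex.exp ((2 * Real.pi * (q - p) : ℝ) * Complex.I) := by
    rw [hdx i, ← Complex.exp_nat_mul]
    have e : (((b : ℕ) - (a : ℕ) : ℕ) : ℂ) * (((2 * Real.pi * x i : ℝ) : ℂ) * Complex.I) =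
        ((2 * Real.pi * (q - p) : ℝ) : ℂ) * Complex.I + M * (2 * Real.pi * Complex.I) := by
      have h9 : ((((b : ℕ) - (a : ℕ) : ℕ) : ℝ) : ℂ) * ((x i : ℝ) : ℂ) = ((q - p : ℝ) : ℂ) + (M : ℂ) := by
        have := congrArg (fun r : ℝ => (r : ℂ)) h7
        push_cast at this ⊢
        exact this
      push_cast at h9 ⊢
      linear_combination (2 * Real.pi * Complex.I) * h9
    rw [e, Complex.exp_add, Complex.exp_int_mul_two_pi_mul_I, mul_one]
  rw [h8, mul_comm _ Complex.I]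
  refine Real.norm_exp_I_mul_ofReal_sub_one_le.trans ?_
  rw [Real.norm_eq_abs, abs_mul, abs_of_pos (by positivity : (0 : ℝ) < 2 * Real.pi)]
  calc 2 * Real.pi * |q - p| ≤ 2 * Real.pi * (1 / K) := by gcongr
    _ = 2 * Real.pi / K := by ring

/-- the observable `u ↦ u ^ L + c ^ L * conj u ^ L` -/
noncomputable def obsF (c : ℂ) (L : ℕ) (u : ℂ) : ℂ := u ^ L + c ^ L * (starRingEnd ℂ) u ^ L

lemma obsF_norm {c : ℂ} (hc : ‖c‖ = 1) (L : ℕ) {u : ℂ} (hu : ‖u‖ = 1) : ‖obsF c L u‖ ≤ 2 := by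
  unfold obsF
  refine (norm_add_le _ _).trans ?_
  rw [norm_mul, norm_pow, norm_pow, norm_pow, RCLike.norm_conj, hc, hu]
  norm_num

lemma obsF_cont (c : ℂ) (L : ℕ) : Continuous (obsF c L) := by
  unfold obsF
  exact (continuous_id.pow L).add (continuous_const.mul (Complex.continuous_conj.pow L))

/-- one bounce hardly changes the observable -/
lemma obsF_step {c c' : ℂ} (hc : ‖c‖ = 1) (hc' : ‖c'‖ = 1) {L : ℕ} {ε : ℝ}
    (h : ‖(c' / c) ^ L - 1‖ ≤ ε) {u : ℂ} (hu : ‖u‖ = 1) :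
    ‖obsF c L (c' * (starRingEnd ℂ) u) - obsF c L u‖ ≤ 2 * ε := by
  have hc0 : c ≠ 0 := by
    intro h0; rw [h0, norm_zero] at hc; exact zero_ne_one hc
  have h1 : ‖c' ^ L - c ^ L‖ ≤ ε := by
    have e : c' ^ L - c ^ L = c ^ L * ((c' / c) ^ L - 1) := by
      rw [div_pow, mul_sub, mul_one, mul_div_cancel₀ _ (pow_ne_zero L hc0)]
    rw [e, norm_mul, norm_pow, hc, one_pow, one_mul]
    exact h
  have hcc : (starRingEnd ℂ) c' ^ L * c' ^ L = 1 := by
    rw [← mul_pow, mul_comm, Complex.mul_conj, Complex.normSq_eq_norm_sq, hc']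
    norm_num
  have h2 : obsF c L (c' * (starRingEnd ℂ) u) - obsF c L u =
      (c' ^ L - c ^ L) * (starRingEnd ℂ) u ^ L +
        (starRingEnd ℂ) c' ^ L * (c ^ L - c' ^ L) * u ^ L := by
    unfold obsF
    rw [map_mul, Complex.conj_conj, mul_pow, mul_pow]
    linear_combination (u ^ L) * hcc
  rw [h2]
  refine (norm_add_le _ _).trans ?_
  rw [norm_mul, norm_mul, norm_mul, norm_pow, norm_pow, norm_pow, RCLike.norm_conj,
    RCLike.norm_conj, hu, hc', norm_sub_rev (c ^ L)]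
  simp only [one_pow, mul_one, one_mul]
  linarith

/-- **A correlation that does not decay.** -/
theorem keep_corr {Ω : Type} [MeasurableSpace Ω] (m : Measure Ω) [IsProbabilityMeasure m]
    {U V : Ω → ℂ} (hU : AEStronglyMeasurable U m) (hV : AEStronglyMeasurable V m)
    (hU2 : ∀ᵐ ω ∂m, ‖U ω‖ ≤ 2) (hV2 : ∀ᵐ ω ∂m, ‖V ω‖ ≤ 2) (h2 : ∫ ω, ‖U ω‖ ^ 2 ∂m = 2)
    {G : Set Ω} (hG : MeasurableSet G) (hGm : m.real Gᶜ ≤ 1 / 16)
    (hc : ∀ᵐ ω ∂m, ω ∈ G → ‖V ω - U ω‖ ≤ 1 / 7) :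
    1 ≤ (∫ ω, V ω * (starRingEnd ℂ) (U ω) ∂m).re := by
  have hUb : Integrable U m := Integrable.of_bound hU 2 hU2
  have hUc : AEStronglyMeasurable (fun ω => (starRingEnd ℂ) (U ω)) m :=
    Complex.continuous_conj.comp_aestronglyMeasurable hU
  have hi1 : Integrable (fun ω => (V ω - U ω) * (starRingEnd ℂ) (U ω)) m := by
    refine Integrable.of_bound ((hV.sub hU).mul hUc) 8 ?_
    filter_upwards [hU2, hV2] with ω a b
    rw [norm_mul, RCLike.norm_conj]
    have : ‖V ω - U ω‖ ≤ 4 := (norm_sub_le _ _).trans (by linarith)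
    nlinarith [norm_nonneg (V ω - U ω), norm_nonneg (U ω)]
  have hi2 : Integrable (fun ω => U ω * (starRingEnd ℂ) (U ω)) m := by
    refine Integrable.of_bound (hU.mul hUc) 4 ?_
    filter_upwards [hU2] with ω a
    rw [norm_mul, RCLike.norm_conj]
    nlinarith [norm_nonneg (U ω)]
  have e1 : ∫ ω, V ω * (starRingEnd ℂ) (U ω) ∂m =
      ∫ ω, (V ω - U ω) * (starRingEnd ℂ) (U ω) ∂m + ∫ ω, U ω * (starRingEnd ℂ) (U ω) ∂m := by
    rw [← integral_add hi1 hi2]
    refine integral_congr_ae (ae_of_all _ fun ω => ?_)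
    ring
  have e2 : ∫ ω, U ω * (starRingEnd ℂ) (U ω) ∂m = ((2 : ℝ) : ℂ) := by
    rw [← h2, ← integral_complex_ofReal]
    refine integral_congr_ae (ae_of_all _ fun ω => ?_)
    simp only
    rw [Complex.mul_conj, Complex.normSq_eq_norm_sq]
  have e3 : ‖∫ ω, (V ω - U ω) * (starRingEnd ℂ) (U ω) ∂m‖ ≤ 2 / 7 + 1 / 2 := by
    refine (norm_integral_le_integral_norm _).trans ?_
    have hbound : ∀ᵐ ω ∂m, ‖(V ω - U ω) * (starRingEnd ℂ) (U ω)‖ ≤
        2 / 7 + Gᶜ.indicator (fun _ => (8 : ℝ)) ω := by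
      filter_upwards [hU2, hV2, hc] with ω a b c
      rw [norm_mul, RCLike.norm_conj]
      by_cases hω : ω ∈ G
      · have hz : Gᶜ.indicator (fun _ => (8 : ℝ)) ω = 0 :=
          indicator_of_notMem (by simpa using hω) _
        rw [hz, add_zero]
        nlinarith [c hω, norm_nonneg (V ω - U ω), norm_nonneg (U ω)]
      · have hz : Gᶜ.indicator (fun _ => (8 : ℝ)) ω = 8 := indicator_of_mem hω _
        rw [hz]
        have : ‖V ω - U ω‖ ≤ 4 := (norm_sub_le _ _).trans (by linarith)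
        nlinarith [norm_nonneg (V ω - U ω), norm_nonneg (U ω)]
    have hii : Integrable (fun ω => 2 / 7 + Gᶜ.indicator (fun _ => (8 : ℝ)) ω) m :=
      (integrable_const _).add ((integrable_const _).indicator hG.compl)
    refine (integral_mono_ae hi1.norm hii hbound).trans ?_
    rw [integral_add (integrable_const _) ((integrable_const _).indicator hG.compl),
      integral_indicator hG.compl, setIntegral_const, integral_const]
    simp only [probReal_univ, smul_eq_mul, one_mul]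
    linarith
  rw [e1, e2, Complex.add_re, Complex.ofReal_re]
  have h3 := (Complex.abs_re_le_norm (∫ ω, (V ω - U ω) * (starRingEnd ℂ) (U ω) ∂m)).trans e3
  have h4 := (abs_le.1 h3).1
  linarith

end Vale.Agent.P099.H717R
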