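import Vale.Agent.P099.Defs

/-!
P099, helper717: from a rate `φ` to the approximation speed `ψ` which contradicts it.
-/

open Set Filter Topology

namespace Vale.Agent.P099.R2.H717R

/-- For every `φ` tending to `0` and every positive sequence `A` there is a speed `ψ` such that: if
`c t L ≥ 1 / 2` as long as `C * t * ε L ≤ 1`, and `ε L < ψ L` for arbitrarily large `L`, then
`c t L ≤ K * A L * φ t` fails. -/
theorem exists_speed' (φ : ℝ → ℝ) (hφ : ∀ t, 0 < φ t) (h0 : Tendsto φ atTop (𝓝 0))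
    (A : ℕ → ℝ) (hA : ∀ n, 0 < A n) :
    ∃ ψ : ℕ → ℝ, (∀ n, 0 < ψ n) ∧ ∀ (c : ℝ → ℕ → ℝ) (C : ℝ) (ε : ℕ → ℝ), (∀ L, 0 ≤ ε L) →
      (∀ t ≥ (1 : ℝ), ∀ L : ℕ, 1 ≤ L → C * t * ε L ≤ 1 → 1 / 2 ≤ c t L) →
      (∀ n : ℕ, ∃ L ≥ n, 1 ≤ L ∧ ε L < ψ L) →
      ¬ ∃ K : ℝ, ∀ t ≥ (1 : ℝ), ∀ L : ℕ, 1 ≤ L → c t L ≤ K * A L * φ t := by
  have hT : ∀ L : ℕ, ∃ t ≥ (1 : ℝ), φ t < 1 / (((L : ℝ) + 1) * A L) := by
    intro L
    have hAL := hA L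
    have h1 : ∀ᶠ t in atTop, φ t < 1 / (((L : ℝ) + 1) * A L) :=
      h0.eventually (gt_mem_nhds (by positivity))
    obtain ⟨t, ht1, ht2⟩ := (h1.and (eventually_ge_atTop (1 : ℝ))).exists
    exact ⟨t, ht2, ht1⟩
  choose T hT1 hT2 using hT
  have hTpos : ∀ L, 0 < T L := fun L => lt_of_lt_of_le one_pos (hT1 L)
  refine ⟨fun L => 1 / (((L : ℝ) + 1) * T L), fun L => ?_, ?_⟩
  · have := hTpos L
    positivity
  intro c C ε hε hc hs ⟨K, hK⟩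
  obtain ⟨n, hn⟩ := exists_nat_ge (max |C| (4 * |K|))
  obtain ⟨L, hL, hL1, hL2⟩ := hs n
  have hLr : (n : ℝ) ≤ L := by exact_mod_cast hL
  have hL0 : (0 : ℝ) < (L : ℝ) + 1 := by positivity
  have hC : |C| ≤ L := (le_max_left _ _).trans (hn.trans hLr)
  have hKL : 4 * |K| ≤ L := (le_max_right _ _).trans (hn.trans hLr)
  have hTL := hTpos L
  have hAL := hA L
  have h1 : C * T L * ε L ≤ 1 := by
    calc C * T L * ε L ≤ |C| * T L * ε L := by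
          have := le_abs_self C
          have := hε L
          gcongr
      _ ≤ ((L : ℝ) + 1) * T L * (1 / (((L : ℝ) + 1) * T L)) := by
          have := hε L
          have h2 : |C| ≤ (L : ℝ) + 1 := by linarith
          gcongr
      _ = 1 := by field_simp
  have h2 := hc (T L) (hT1 L) L hL1 h1
  have h3 := hK (T L) (hT1 L) L hL1
  have h4 : K * A L * φ (T L) ≤ |K| * A L * (1 / (((L : ℝ) + 1) * A L)) := by
    have hk := le_abs_self K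
    have hp := (hφ (T L)).le
    have ht := (hT2 L).le
    gcongr
  have h5 : |K| * A L * (1 / (((L : ℝ) + 1) * A L)) = |K| / ((L : ℝ) + 1) := by
    field_simp
  have h6 : |K| / ((L : ℝ) + 1) ≤ 1 / 4 := by
    rw [div_le_iff₀ hL0]
    linarith
  linarith

/-- The same with `A L = L ^ 2`. -/
theorem exists_speed (φ : ℝ → ℝ) (hφ : ∀ t, 0 < φ t) (h0 : Tendsto φ atTop (𝓝 0)) :
    ∃ ψ : ℕ → ℝ, (∀ n, 0 < ψ n) ∧ ∀ (c : ℝ → ℕ → ℝ) (C : ℝ) (ε : ℕ → ℝ), (∀ L, 0 ≤ ε L) →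
      (∀ t ≥ (1 : ℝ), ∀ L : ℕ, 1 ≤ L → C * t * ε L ≤ 1 → 1 / 2 ≤ c t L) →
      (∀ n : ℕ, ∃ L ≥ n, 1 ≤ L ∧ ε L < ψ L) →
      ¬ ∃ K : ℝ, ∀ t ≥ (1 : ℝ), ∀ L : ℕ, 1 ≤ L → c t L ≤ K * L ^ 2 * φ t := by
  obtain ⟨ψ, h1, h2⟩ := exists_speed' φ hφ h0 (fun n => if n = 0 then 1 else (n : ℝ) ^ 2)
    (fun n => by
      by_cases h : n = 0
      · simp [h]
      · rw [if_neg h]
        have : (0 : ℝ) < n := by exact_mod_cast Nat.pos_of_ne_zero h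
        positivity)
  refine ⟨ψ, h1, fun c C ε e1 e2 e3 ⟨K, hK⟩ => h2 c C ε e1 e2 e3 ⟨K, fun t ht L hL => ?_⟩⟩
  rw [if_neg (by omega)]
  exact hK t ht L hL

end Vale.Agent.P099.R2.H717R
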