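import Vale.Agent.P099.R2.H525.GENA_helper16

/-!
P099, helper717: the general principle for functions which are smooth on the circle.
-/

open MeasureTheory Set Filter Topology

namespace Vale.Agent.P099.R2.H717R

open Vale.Agent.P099 Vale.Agent.P099.R2.H525

/-- smooth on the circle -/
def Smooth (f : ℂ → ℂ) : Prop := ContDiff ℝ ((⊤ : ℕ∞) : WithTop ℕ∞) (fun θ : ℝ => f (Complex.exp (θ * Complex.I)))

lemma iter_exp (c : ℂ) (b : ℂ) (n : ℕ) :
    iteratedDeriv n (fun θ : ℝ => c * Complex.exp (b * θ)) =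
      fun θ : ℝ => c * b ^ n * Complex.exp (b * θ) := by
  induction n with
  | zero => simp
  | succ n ih =>
    rw [iteratedDeriv_succ, ih]
    ext θ
    have h : HasDerivAt (fun θ : ℝ => c * b ^ n * Complex.exp (b * θ))
        (c * b ^ n * (Complex.exp (b * θ) * (b * 1))) θ := by
      have h1 : HasDerivAt (fun θ : ℝ => (θ : ℂ)) 1 θ := Complex.ofRealCLM.hasDerivAt
      exact ((h1.const_mul b).cexp).const_mul _
    rw [h.deriv]
    ring

variable {a : ℕ → ℝ}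

lemma smooth_ser (ha : ∀ L, 1 ≤ L → 1 ≤ a L) (hB : ∀ n : ℕ, ∃ B : ℝ, ∀ L : ℕ, 1 ≤ L →
    (L : ℝ) ^ n ≤ B * a L) (x : ℕ → ℂ) (hx : Summable fun k => ‖x k‖) :
    Smooth (fun u : ℂ => ∑' k, x k * (u ^ (k + 1) / (a (k + 1) : ℂ))) := by
  choose B hB using hB
  unfold Smooth
  have he : (fun θ : ℝ => (fun u : ℂ => ∑' k, x k * (u ^ (k + 1) / (a (k + 1) : ℂ)))
      (Complex.exp (θ * Complex.I))) =
      fun θ : ℝ => ∑' k : ℕ, (x k / (a (k + 1) : ℂ)) *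
        Complex.exp ((((k + 1 : ℕ) : ℂ) * Complex.I) * θ) := by
    ext θ
    dsimp only
    congr 1
    ext k
    rw [← Complex.exp_nat_mul]
    rw [show (((k + 1 : ℕ) : ℂ) * (θ * Complex.I)) = (((k + 1 : ℕ) : ℂ) * Complex.I) * θ by ring]
    ring
  rw [he]
  refine contDiff_tsum (v := fun n k => ‖x k‖ * B n) (fun k => ?_) (fun n _ => hx.mul_right _)
    (fun n k θ _ => ?_)
  · exact contDiff_const.mul ((contDiff_const.mul Complex.ofRealCLM.contDiff).cexp)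
  · rw [norm_iteratedFDeriv_eq_norm_iteratedDeriv, iter_exp]
    dsimp only
    have hak : 1 ≤ a (k + 1) := ha (k + 1) (by omega)
    have hak0 : 0 < a (k + 1) := by linarith
    have e1 : ‖Complex.exp ((((k + 1 : ℕ) : ℂ) * Complex.I) * θ)‖ = 1 := by
      rw [show (((k + 1 : ℕ) : ℂ) * Complex.I) * θ = (((k + 1 : ℕ) : ℝ) * θ : ℝ) * Complex.I by
        push_cast; ring]
      exact Complex.norm_exp_ofReal_mul_I _
    rw [norm_mul, e1, mul_one, norm_mul, norm_div, Complex.norm_real, Real.norm_of_nonneg hak0.le,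
      norm_pow, norm_mul, Complex.norm_natCast, Complex.norm_I, mul_one]
    have := hB n (k + 1) (by omega)
    rw [div_mul_eq_mul_div, div_le_iff₀ hak0, mul_assoc]
    gcongr

lemma ser_eq' (ha : ∀ L, 1 ≤ L → 1 ≤ a L) (x : ℕ → ℂ) (u : ℂ) :
    ∑' k, x k * (u ^ (k+1) / (a (k + 1) : ℂ)) =
      ∑' k, (x k * ((k + 1 : ℕ) : ℂ) / (a (k + 1) : ℂ)) * (u ^ (k+1) / (k+1)) := by
  congr 1
  ext k
  have h1 : (a (k + 1) : ℂ) ≠ 0 := by
    have := ha (k + 1) (by omega)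
    exact_mod_cast (by linarith : a (k + 1) ≠ 0)
  have h2 : ((k : ℂ) + 1) ≠ 0 := Nat.cast_add_one_ne_zero k
  push_cast
  field_simp

lemma sum_a (ha : ∀ L, 1 ≤ L → 1 ≤ a L) (hB : ∀ n : ℕ, ∃ B : ℝ, ∀ L : ℕ, 1 ≤ L →
    (L : ℝ) ^ n ≤ B * a L) (x : ℕ → ℂ) (hx : Summable fun k => ‖x k‖) :
    Summable fun k => ‖x k * ((k + 1 : ℕ) : ℂ) / (a (k + 1) : ℂ)‖ := by
  obtain ⟨B, hB⟩ := hB 1
  refine Summable.of_nonneg_of_le (fun _ => norm_nonneg _) (fun k => ?_) (hx.mul_right B)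
  have hak : 1 ≤ a (k + 1) := ha (k + 1) (by omega)
  have hak0 : 0 < a (k + 1) := by linarith
  rw [norm_div, norm_mul, Complex.norm_natCast, Complex.norm_real, Real.norm_of_nonneg hak0.le,
    div_le_iff₀ hak0, mul_assoc]
  have := hB (k + 1) (by omega)
  rw [pow_one] at this
  gcongr

theorem gen_half_a (ha : ∀ L, 1 ≤ L → 1 ≤ a L) (hB : ∀ n : ℕ, ∃ B : ℝ, ∀ L : ℕ, 1 ≤ L →
    (L : ℝ) ^ n ≤ B * a L) {Ω : Type} [MeasurableSpace Ω] (m : Measure Ω) [IsProbabilityMeasure m]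
    (z : ℝ → Ω → ℂ) (u : Ω → ℂ) (hz : ∀ t, Measurable (z t)) (hu : Measurable u)
    (h1 : ∀ t, ∀ᵐ ω ∂m, ‖z t ω‖ = 1) (h2 : ∀ᵐ ω ∂m, ‖u ω‖ = 1) (w : ℝ → ℝ) (hw : ∀ t, 0 < w t)
    (h : ∀ x y : ℕ → ℂ, Summable (fun k => ‖x k‖) → Summable (fun l => ‖y l‖) →
      ∃ K : ℝ, ∀ t ≥ (1:ℝ), ‖∫ ω, (∑' k, x k * (z t ω ^ (k+1) / (a (k+1) : ℂ))) *
        (∑' l, y l * (u ω ^ (l+1) / (a (l+1) : ℂ))) ∂m‖ ≤ K * w t) :
    ∃ K : ℝ, ∀ t ≥ (1:ℝ), ∀ L : ℕ, 1 ≤ L →
      ‖∫ ω, z t ω ^ L * (u ω) ^ L ∂m‖ ≤ K * a L ^ 2 * w t := by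
  have hI : ∀ t (k l : ℕ), ‖∫ ω, z t ω ^ (k+1) * u ω ^ (l+1) ∂m‖ ≤ 1 := by
    intro t k l
    have := norm_integral_le_of_norm_le_const (μ := m)
      (f := fun ω => z t ω ^ (k+1) * u ω ^ (l+1)) (C := 1) (by
        filter_upwards [h1 t, h2] with ω e1 e2
        rw [norm_mul, norm_pow, norm_pow, e1, e2, one_pow, one_pow, one_mul])
    simpa using this
  have hna : ∀ k : ℕ, ‖(a (k + 1) : ℂ)‖ = a (k + 1) := fun k => by
    have := ha (k + 1) (by omega)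
    rw [Complex.norm_real, Real.norm_of_nonneg (by linarith)]
  obtain ⟨K, hK⟩ := uniform_bound
    (fun t k l => (∫ ω, z t ω ^ (k+1) * u ω ^ (l+1) ∂m) /
      ((a (k+1) : ℂ) * (a (l+1) : ℂ)))
    (fun t k l => by
      have h3 := ha (k + 1) (by omega)
      have h4 := ha (l + 1) (by omega)
      rw [norm_div, norm_mul, hna, hna,
        div_le_one (by positivity)]
      refine (hI t k l).trans ?_
      nlinarith)
    w hw (fun x y hx hy => by
      obtain ⟨K, hK⟩ := h x y hx hy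
      refine ⟨K, fun t ht => ?_⟩
      have e := int_series m (hz t) hu (h1 t) h2
        (fun k => x k * ((k + 1 : ℕ) : ℂ) / (a (k + 1) : ℂ))
        (fun l => y l * ((l + 1 : ℕ) : ℂ) / (a (l + 1) : ℂ)) (sum_a ha hB x hx) (sum_a ha hB y hy)
      have := hK t ht
      simp only [ser_eq' ha] at this
      rw [e] at this
      have e2 : (∑' k, ∑' l, x k * y l * ((∫ ω, z t ω ^ (k+1) * u ω ^ (l+1) ∂m) /
          ((a (k+1) : ℂ) * (a (l+1) : ℂ)))) =
          ∑' k, ∑' l, (x k * ((k + 1 : ℕ) : ℂ) / (a (k + 1) : ℂ)) *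
            (y l * ((l + 1 : ℕ) : ℂ) / (a (l + 1) : ℂ)) *
            ((∫ ω, z t ω ^ (k+1) * u ω ^ (l+1) ∂m) / ((k+1) * (l+1))) := by
        congr 1
        ext k
        congr 1
        ext l
        have a1 : (a (k + 1) : ℂ) ≠ 0 := by
          have := ha (k + 1) (by omega)
          exact_mod_cast (by linarith : a (k + 1) ≠ 0)
        have a2 : ((k : ℂ) + 1) ≠ 0 := Nat.cast_add_one_ne_zero k
        have a3 : (a (l + 1) : ℂ) ≠ 0 := by
          have := ha (l + 1) (by omega)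
          exact_mod_cast (by linarith : a (l + 1) ≠ 0)
        have a4 : ((l : ℂ) + 1) ≠ 0 := Nat.cast_add_one_ne_zero l
        push_cast
        field_simp
      rw [e2]
      exact this)
  refine ⟨K, fun t ht L hL => ?_⟩
  obtain ⟨k, rfl⟩ : ∃ k, L = k + 1 := ⟨L - 1, by omega⟩
  have := hK t ht k k
  have h3 : 0 < a (k + 1) := by linarith [ha (k + 1) (by omega)]
  rw [norm_div, norm_mul, hna, div_le_iff₀ (by positivity)] at this
  calc _ ≤ _ := this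
    _ = _ := by ring

theorem gen_smooth (ha : ∀ L, 1 ≤ L → 1 ≤ a L) (hB : ∀ n : ℕ, ∃ B : ℝ, ∀ L : ℕ, 1 ≤ L →
    (L : ℝ) ^ n ≤ B * a L) {Ω : Type} [MeasurableSpace Ω] (m : Measure Ω) [IsProbabilityMeasure m]
    (z : ℝ → Ω → ℂ) (v : Ω → ℂ) (hz : ∀ t, Measurable (z t)) (hv : Measurable v)
    (h1 : ∀ t, ∀ᵐ ω ∂m, ‖z t ω‖ = 1) (h2 : ∀ᵐ ω ∂m, ‖v ω‖ = 1) (w : ℝ → ℝ) (hw : ∀ t, 0 < w t)
    (h : ∀ f g : ℂ → ℂ, Smooth f → Smooth g →
      ∃ K : ℝ, ∀ t ≥ (1:ℝ), ‖∫ ω, f (z t ω) * g (v ω) ∂m -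
        (∫ u, f u ∂Vale.Agent.P099.nu) * ∫ u, g u ∂Vale.Agent.P099.nu‖ ≤ K * w t) :
    ∃ K : ℝ, ∀ t ≥ (1:ℝ), ∀ L : ℕ, 1 ≤ L →
      ‖∫ ω, z t ω ^ L * (starRingEnd ℂ (v ω)) ^ L ∂m‖ + ‖∫ ω, z t ω ^ L * v ω ^ L ∂m‖ ≤
        K * a L ^ 2 * w t := by
  have han := smooth_ser ha hB
  have hmean : ∀ x : ℕ → ℂ, (Summable fun k => ‖x k‖) →
      ∫ u, (∑' k, x k * (u ^ (k+1) / (a (k+1) : ℂ))) ∂Vale.Agent.P099.nu = 0 := by
    intro x hx
    simp only [ser_eq' ha]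
    exact meanF _ (sum_a ha hB x hx)
  obtain ⟨K1, hK1⟩ := gen_half_a ha hB m z (fun ω => starRingEnd ℂ (v ω)) hz
    (Complex.continuous_conj.measurable.comp hv) h1 (by
      filter_upwards [h2] with ω e
      rw [RCLike.norm_conj, e]) w hw (fun x y hx hy => by
      obtain ⟨K, hK⟩ := h (fun u : ℂ => ∑' k, x k * (u ^ (k+1) / (a (k+1) : ℂ)))
        (fun u : ℂ => ∑' l, y l * ((starRingEnd ℂ u) ^ (l+1) / (a (l+1) : ℂ))) (han x hx)
        (by
          have e := (han y hy)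
          unfold Smooth at e ⊢
          have e2 := e.comp (contDiff_neg (𝕜 := ℝ) (F := ℝ))
          have e3 : (fun θ : ℝ => (fun u : ℂ => ∑' l, y l * ((starRingEnd ℂ u) ^ (l+1) /
              (a (l+1) : ℂ))) (Complex.exp (θ * Complex.I))) =
              (fun θ : ℝ => (fun u : ℂ => ∑' l, y l * (u ^ (l+1) / (a (l+1) : ℂ)))
                (Complex.exp (θ * Complex.I))) ∘ (fun p => -p) := by
            ext θ
            have e4 : (starRingEnd ℂ) (Complex.exp (θ * Complex.I)) =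
                Complex.exp (((-θ : ℝ) : ℂ) * Complex.I) := by
              rw [← Complex.exp_conj]
              congr 1
              simp
            simp only [Function.comp_apply]
            rw [e4]
          rw [e3]
          exact e2)
      refine ⟨K, fun t ht => ?_⟩
      have := hK t ht
      rw [hmean x hx, zero_mul, sub_zero] at this
      exact this)
  obtain ⟨K2, hK2⟩ := gen_half_a ha hB m z v hz hv h1 h2 w hw (fun x y hx hy => by
      obtain ⟨K, hK⟩ := h _ _ (han x hx) (han y hy)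
      refine ⟨K, fun t ht => ?_⟩
      have := hK t ht
      rw [hmean x hx, zero_mul, sub_zero] at this
      exact this)
  refine ⟨K1 + K2, fun t ht L hL => ?_⟩
  have e1 := hK1 t ht L hL
  have e2 := hK2 t ht L hL
  linarith

end Vale.Agent.P099.R2.H717R
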