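import Vale.Agent.P099.R2.H717R.Smooth1
import Vale.Agent.P099.R2.H525.Gen4

/-!
P099, helper717: a rate of mixing of the smooth functions of the direction is at least a power.
-/

open MeasureTheory Set Filter Topology

namespace Vale.Agent.P099.R2.H717R

open Vale.Agent.P099 Vale.Agent.P099T Vale.Agent.P099.R2.H525

/-- the weight `L ^ m L`, where `m L` is the first `j` with `l j = L` (or `L`, if there is none) -/
lemma exists_weight (l : ℕ → ℕ) (hl : ∀ j, 1 ≤ l j) :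
    ∃ a : ℕ → ℝ, (∀ L, 1 ≤ L → 1 ≤ a L) ∧
      (∀ n : ℕ, ∃ B : ℝ, ∀ L : ℕ, 1 ≤ L → (L : ℝ) ^ n ≤ B * a L) ∧
      ∀ j, a (l j) ≤ (l j : ℝ) ^ j := by
  classical
  set m : ℕ → ℕ := fun L => if h : ∃ j, l j = L then Nat.find h else L with hm
  refine ⟨fun L => (L : ℝ) ^ m L, fun L hL => ?_, fun n => ?_, fun j => ?_⟩
  · exact one_le_pow₀ (by exact_mod_cast hL)
  · obtain ⟨M, hM⟩ : ∃ M : ℕ, ∀ L, m L < n → L ≤ M := by
      refine ⟨n + ∑ j ∈ Finset.range n, l j, fun L hL => ?_⟩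
      by_cases h : ∃ j, l j = L
      · have h1 : m L = Nat.find h := dif_pos h
        rw [h1] at hL
        have h2 : l (Nat.find h) = L := Nat.find_spec h
        have h3 : l (Nat.find h) ≤ ∑ j ∈ Finset.range n, l j :=
          Finset.single_le_sum (f := l) (fun _ _ => Nat.zero_le _) (Finset.mem_range.2 hL)
        omega
      · have h1 : m L = L := dif_neg h
        omega
    refine ⟨((M : ℝ) + 1) ^ n, fun L hL => ?_⟩
    have hL1 : (1 : ℝ) ≤ L := by exact_mod_cast hL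
    have ha : 1 ≤ (L : ℝ) ^ m L := one_le_pow₀ hL1
    have hM1 : (1 : ℝ) ≤ ((M : ℝ) + 1) ^ n := one_le_pow₀ (by
      have : (0 : ℝ) ≤ M := M.cast_nonneg
      linarith)
    by_cases h : m L < n
    · have h1 : (L : ℝ) ≤ (M : ℝ) + 1 := by
        have : (L : ℝ) ≤ M := by exact_mod_cast hM L h
        linarith
      calc (L : ℝ) ^ n ≤ ((M : ℝ) + 1) ^ n := pow_le_pow_left₀ (by linarith) h1 n
        _ ≤ ((M : ℝ) + 1) ^ n * (L : ℝ) ^ m L := le_mul_of_one_le_right (by linarith) ha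
    · calc (L : ℝ) ^ n ≤ (L : ℝ) ^ m L := pow_le_pow_right₀ hL1 (not_lt.1 h)
        _ ≤ ((M : ℝ) + 1) ^ n * (L : ℝ) ^ m L := le_mul_of_one_le_left (by linarith) hM1
  · have h : ∃ i, l i = l j := ⟨j, rfl⟩
    have h1 : m (l j) = Nat.find h := dif_pos h
    have h2 : m (l j) ≤ j := by
      rw [h1]
      exact Nat.find_min' h rfl
    exact pow_le_pow_right₀ (by exact_mod_cast hl j) h2

variable {N : ℕ}

theorem gen_table_smooth (T : PolygonalTable N) {Φ : ℝ → ℂ × ℂ → ℂ × ℂ}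
    (hΦ : T.IsBilliardFlow Φ) {a : ℕ → ℝ} (ha : ∀ L, 1 ≤ L → 1 ≤ a L)
    (hB : ∀ n : ℕ, ∃ B : ℝ, ∀ L : ℕ, 1 ≤ L → (L : ℝ) ^ n ≤ B * a L)
    (w : ℝ → ℝ) (hw : ∀ t, 0 < w t)
    (h : ∀ f g : ℂ → ℂ, Smooth f → Smooth g → ∃ K : ℝ, ∀ t ≥ (1 : ℝ),
      ‖corr T.mu Φ f g t‖ ≤ K * w t) :
    ∃ K : ℝ, ∀ t ≥ (1 : ℝ), ∀ L : ℕ, 1 ≤ L → chi T Φ L t ≤ K * a L ^ 2 * w t := by
  obtain ⟨Θ, hΘ, hb, hu⟩ := exists_theta T
  have hun : ∀ᵐ p ∂T.mu, ‖p.2‖ = 1 := Vale.Agent.P099.R2.H278.ae_unit T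
  obtain ⟨K, hK⟩ := gen_smooth ha hB T.mu (fun t p => (Θ t p).2) (fun p => p.2)
    (fun t => (hΘ.mp t).measurable.snd) measurable_snd
    (fun t => (hΘ.mp t).quasiMeasurePreserving.ae hun) hun w hw (fun f g hf hg => by
      obtain ⟨K, hK⟩ := h f g hf hg
      refine ⟨K, fun t ht => ?_⟩
      have h1 := hK t ht
      unfold corr at h1
      have h2 : ∫ p, f (Φ t p).2 * g p.2 ∂T.mu = ∫ p, f (Θ t p).2 * g p.2 ∂T.mu := by
        refine integral_congr_ae ?_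
        filter_upwards [hu Φ hΦ t] with p hp
        rw [hp]
      rw [h2] at h1
      exact h1)
  refine ⟨K, fun t ht L hL => ?_⟩
  rw [chi_congr (hu Φ hΦ t) L]
  exact hK t ht L hL

/-- **Every rate of mixing of the smooth functions of the direction is at least a power.** -/
theorem smooth_rate (T : PolygonalTable N) {Φ : ℝ → ℂ × ℂ → ℂ × ℂ} (hΦ : T.IsBilliardFlow Φ)
    (φ : ℝ → ℝ) (hφ : ∀ t, 0 < φ t)
    (h : ∀ f g : ℂ → ℂ, Smooth f → Smooth g → ∃ K : ℝ, ∀ t ≥ (1 : ℝ),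
      ‖corr T.mu Φ f g t‖ ≤ K * φ t) :
    ∃ (a : ℕ) (c : ℝ), 0 < c ∧ ∀ t ≥ (1 : ℝ), c / t ^ a ≤ φ t := by
  by_contra hcon
  push Not at hcon
  obtain ⟨C, hC, hnd⟩ := nodecay T
  have key : ∀ j : ℕ, ∃ t ≥ (1 : ℝ), ∃ L : ℕ, 1 ≤ L ∧ 1 / 2 ≤ chi T Φ L t ∧
      ((j : ℝ) + 1) * (L : ℝ) ^ (2 * j) * φ t ≤ 1 := by
    intro j
    obtain ⟨t, ht, hlt⟩ := hcon ((N - 1) * (2 * j)) (1 / (((j : ℝ) + 1) * C ^ (2 * j)))
      (by positivity)
    have ht0 : 0 < t := by linarith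
    obtain ⟨L, hL1, hL2, hL3⟩ := hnd Φ hΦ t ht
    refine ⟨t, ht, L, hL1, hL3, ?_⟩
    have h1 : (L : ℝ) ^ (2 * j) ≤ (C * t ^ (N - 1)) ^ (2 * j) :=
      pow_le_pow_left₀ (by positivity) hL2 _
    rw [mul_pow, ← pow_mul] at h1
    rw [div_div, lt_div_iff₀ (by positivity)] at hlt
    have hp := (hφ t).le
    calc ((j : ℝ) + 1) * (L : ℝ) ^ (2 * j) * φ t
        ≤ ((j : ℝ) + 1) * (C ^ (2 * j) * t ^ ((N - 1) * (2 * j))) * φ t := by gcongr
      _ = φ t * (((j : ℝ) + 1) * C ^ (2 * j) * t ^ ((N - 1) * (2 * j))) := by ring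
      _ ≤ 1 := hlt.le
  choose t ht l hl hchi hphi using key
  obtain ⟨a, ha, hB, hal⟩ := exists_weight l hl
  obtain ⟨K, hK⟩ := gen_table_smooth T hΦ ha hB φ hφ h
  obtain ⟨j, hj⟩ := exists_nat_gt (2 * |K|)
  have h1 := hK (t j) (ht j) (l j) (hl j)
  have h2 := hchi j
  have h3 := hphi j
  have h4 := hal j
  have ha0 : 0 ≤ a (l j) := by linarith [ha (l j) (hl j)]
  have h5 : a (l j) ^ 2 ≤ (l j : ℝ) ^ (2 * j) := by
    have := pow_le_pow_left₀ ha0 h4 2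
    rwa [← pow_mul, mul_comm j 2] at this
  have hp := (hφ (t j)).le
  have h6 : K * a (l j) ^ 2 * φ (t j) ≤ |K| * ((l j : ℝ) ^ (2 * j) * φ (t j)) := by
    calc K * a (l j) ^ 2 * φ (t j) ≤ |K| * a (l j) ^ 2 * φ (t j) := by
          have := le_abs_self K
          gcongr
      _ ≤ |K| * (l j : ℝ) ^ (2 * j) * φ (t j) := by gcongr
      _ = _ := by ring
  have h7 : (l j : ℝ) ^ (2 * j) * φ (t j) ≤ 1 / ((j : ℝ) + 1) := by
    rw [le_div_iff₀ (by positivity)]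
    linarith
  have h8 : |K| * ((l j : ℝ) ^ (2 * j) * φ (t j)) ≤ |K| * (1 / ((j : ℝ) + 1)) := by
    gcongr
  have h9 : |K| * (1 / ((j : ℝ) + 1)) < 1 / 2 := by
    rw [mul_one_div, div_lt_iff₀ (by positivity)]
    linarith
  linarith

end Vale.Agent.P099.R2.H717R
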